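import Mathlib

open scoped ContDiff
open MeasureTheory

namespace Vale.Agent.P229

/-- The fderiv of a coordinate. -/
lemma fderiv_coord {Φ : ℝ × ℝ → EuclideanSpace ℝ (Fin 3)} {p : ℝ × ℝ}
    (hd : DifferentiableAt ℝ Φ p) (i : Fin 3) {l : (ℝ × ℝ) →L[ℝ] ℝ}
    (hl : HasFDerivAt (fun q => Φ q i) l p) (v : ℝ × ℝ) : (fderiv ℝ Φ p v) i = l v := by
  have h1 := (EuclideanSpace.proj i : EuclideanSpace ℝ (Fin 3) →L[ℝ] ℝ).hasFDerivAt.comp p hd.hasFDerivAt
  have h2 := h1.unique hl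
  have h3 := congrArg (fun m : (ℝ × ℝ) →L[ℝ] ℝ => m v) h2
  simpa using h3

/-- A metric invariant under translations in `y` is realised on every strip by a helicoidal
surface. -/
theorem strip_immersion (E H G : ℝ → ℝ)
    (hE : ContDiff ℝ ∞ E) (hH : ContDiff ℝ ∞ H) (hG : ContDiff ℝ ∞ G)
    (hGpos : ∀ x, 0 < G x) (hdet : ∀ x, 0 < E x * G x - H x ^ 2) (a b : ℝ) :
    ∃ Φ : ℝ × ℝ → EuclideanSpace ℝ (Fin 3),
      ContDiffOn ℝ ∞ Φ (Set.Ioo a b ×ˢ Set.univ) ∧
      ∀ p ∈ Set.Ioo a b ×ˢ (Set.univ : Set ℝ), ∀ v w : ℝ × ℝ,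
        inner ℝ (fderiv ℝ Φ p v) (fderiv ℝ Φ p w)
          = E p.1 * v.1 * w.1 + H p.1 * (v.1 * w.2 + v.2 * w.1) + G p.1 * v.2 * w.2 := by
  have hGne : ∀ x, G x ≠ 0 := fun x => (hGpos x).ne'
  -- the radius function
  set r : ℝ → ℝ := fun x => Real.sqrt (G x) with hr
  have hrs : ContDiff ℝ ∞ r := hG.sqrt hGne
  have hrsq : ∀ x, r x ^ 2 = G x := fun x => Real.sq_sqrt (hGpos x).le
  have hrd := (contDiff_infty_iff_deriv.1 hrs)
  set W : ℝ → ℝ := deriv r with hW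
  have hWs : ContDiff ℝ ∞ W := hrd.2
  have hrW : ∀ x, HasDerivAt r (W x) x := fun x => (hrd.1 x).hasDerivAt
  -- the normal part
  set D : ℝ → ℝ := fun x => E x - H x ^ 2 / G x with hD
  have hDs : ContDiff ℝ ∞ D := hE.sub ((hH.pow 2).div hG hGne)
  have hDpos : ∀ x, 0 < D x := by
    intro x
    have h1 := hdet x
    have h2 := hGpos x
    have h3 : D x = (E x * G x - H x ^ 2) / G x := by
      simp only [hD]
      field_simp
    rw [h3]
    exact div_pos h1 h2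
  -- the frequency
  have hcont : Continuous (fun x => W x ^ 2 / D x) :=
    (hWs.continuous.pow 2).div hDs.continuous (fun x => (hDpos x).ne')
  obtain ⟨M, hM⟩ := (isCompact_Icc (a := a) (b := b)).exists_bound_of_continuousOn hcont.continuousOn
  set k : ℝ := |M| + 1 with hk
  have hk1 : 1 ≤ k := by
    have := abs_nonneg M
    linarith
  have hkpos : 0 < k := by linarith
  have hWk : ∀ x ∈ Set.Ioo a b, W x ^ 2 / k ^ 2 < D x := by
    intro x hx
    have h1 := hM x (Set.Ioo_subset_Icc_self hx)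
    rw [Real.norm_eq_abs] at h1
    have h2 : W x ^ 2 / D x ≤ |M| := (le_abs_self _).trans (h1.trans (le_abs_self M))
    have h3 : |M| < k ^ 2 := by
      have := abs_nonneg M
      nlinarith
    have h4 : W x ^ 2 / D x < k ^ 2 := lt_of_le_of_lt h2 h3
    rw [div_lt_iff₀ (hDpos x)] at h4
    rw [div_lt_iff₀ (by positivity)]
    linarith
  -- the height speed
  set S : ℝ → ℝ := fun x => D x - W x ^ 2 / k ^ 2 with hSdef
  have hSpos : ∀ x ∈ Set.Ioo a b, 0 < S x := fun x hx => by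
    have := hWk x hx
    simp only [hSdef]
    linarith
  have hSs : ContDiff ℝ ∞ S := hDs.sub ((hWs.pow 2).div_const _)
  set s : ℝ → ℝ := fun x => Real.sqrt (S x) with hsdef
  have hscont : Continuous s := hSs.continuous.sqrt
  have hssOn : ContDiffOn ℝ ∞ s (Set.Ioo a b) :=
    hSs.contDiffOn.sqrt (fun x hx => (hSpos x hx).ne')
  have hssq : ∀ x ∈ Set.Ioo a b, s x ^ 2 = S x := fun x hx => Real.sq_sqrt (hSpos x hx).le
  -- the height
  set τ : ℝ → ℝ := fun x => ∫ t in (0 : ℝ)..x, s t with hτ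
  have hτd : ∀ x, HasDerivAt τ (s x) x := fun x =>
    (hscont.integral_hasStrictDerivAt 0 x).hasDerivAt
  have hderivτ : deriv τ = s := by
    funext x
    exact (hτd x).deriv
  have hτOn : ContDiffOn ℝ ∞ τ (Set.Ioo a b) := by
    rw [contDiffOn_infty_iff_deriv_of_isOpen isOpen_Ioo]
    refine ⟨fun x _ => (hτd x).differentiableAt.differentiableWithinAt, ?_⟩
    rw [hderivτ]
    exact hssOn
  -- the twist
  set b' : ℝ → ℝ := fun x => H x / G x with hb
  have hbs : ContDiff ℝ ∞ b' := hH.div hG hGne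
  set B : ℝ → ℝ := fun x => ∫ t in (0 : ℝ)..x, b' t with hB
  have hBd : ∀ x, HasDerivAt B (b' x) x := fun x =>
    (hbs.continuous.integral_hasStrictDerivAt 0 x).hasDerivAt
  have hBs : ContDiff ℝ ∞ B := by
    rw [contDiff_infty_iff_deriv]
    refine ⟨fun x => (hBd x).differentiableAt, ?_⟩
    have : deriv B = b' := by
      funext x
      exact (hBd x).deriv
    rw [this]
    exact hbs
  -- the map
  set θ : ℝ × ℝ → ℝ := fun p => k * p.2 + k * B p.1 with hθ
  set A : ℝ → ℝ := fun x => r x / k with hA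
  have hAs : ContDiff ℝ ∞ A := hrs.div_const k
  have hθs : ContDiff ℝ ∞ θ :=
    (contDiff_const.mul contDiff_snd).add (contDiff_const.mul (hBs.comp contDiff_fst))
  set U : Set (ℝ × ℝ) := Set.Ioo a b ×ˢ Set.univ with hU
  have hUopen : IsOpen U := isOpen_Ioo.prod isOpen_univ
  have hτU : ContDiffOn ℝ ∞ (fun p : ℝ × ℝ => τ p.1) U :=
    hτOn.comp contDiff_fst.contDiffOn (fun p hp => hp.1)
  have hΦs : ContDiffOn ℝ ∞ (fun p : ℝ × ℝ => !₂[A p.1 * Real.cos (θ p), A p.1 * Real.sin (θ p),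
      τ p.1]) U := by
    rw [contDiffOn_euclidean]
    intro i
    fin_cases i
    · exact ((hAs.comp contDiff_fst).mul (Real.contDiff_cos.comp hθs)).contDiffOn
    · exact ((hAs.comp contDiff_fst).mul (Real.contDiff_sin.comp hθs)).contDiffOn
    · exact hτU
  refine ⟨fun p => !₂[A p.1 * Real.cos (θ p), A p.1 * Real.sin (θ p), τ p.1], hΦs, ?_⟩
  intro p hp v w
  obtain ⟨x, y⟩ := p
  have hxI : x ∈ Set.Ioo a b := hp.1
  have hdiff : DifferentiableAt ℝ (fun p : ℝ × ℝ => !₂[A p.1 * Real.cos (θ p),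
      A p.1 * Real.sin (θ p), τ p.1]) (x, y) :=
    (hΦs.contDiffAt (hUopen.mem_nhds hp)).differentiableAt (by simp)
  set π1 := ContinuousLinearMap.fst ℝ ℝ ℝ with hπ1
  set π2 := ContinuousLinearMap.snd ℝ ℝ ℝ with hπ2
  have hfst : HasFDerivAt (fun q : ℝ × ℝ => q.1) π1 (x, y) := hasFDerivAt_fst
  have hsnd : HasFDerivAt (fun q : ℝ × ℝ => q.2) π2 (x, y) := hasFDerivAt_snd
  have hA1 : HasDerivAt A (W x / k) x := (hrW x).div_const k
  have hAq : HasFDerivAt (fun q : ℝ × ℝ => A q.1) ((W x / k) • π1) (x, y) := by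
    have h0 : HasDerivAt A (W x / k) ((x, y) : ℝ × ℝ).1 := hA1
    have := h0.comp_hasFDerivAt (x, y) hfst
    exact this
  have hBq : HasFDerivAt (fun q : ℝ × ℝ => B q.1) (b' x • π1) (x, y) := by
    have h0 : HasDerivAt B (b' x) ((x, y) : ℝ × ℝ).1 := hBd x
    have := h0.comp_hasFDerivAt (x, y) hfst
    exact this
  have hθq : HasFDerivAt θ (k • π2 + k • (b' x • π1)) (x, y) :=
    (hsnd.const_mul k).fun_add (hBq.const_mul k)
  have hτq : HasFDerivAt (fun q : ℝ × ℝ => τ q.1) (s x • π1) (x, y) := by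
    have h0 : HasDerivAt τ (s x) ((x, y) : ℝ × ℝ).1 := hτd x
    have := h0.comp_hasFDerivAt (x, y) hfst
    exact this
  set dθ := k • π2 + k • (b' x • π1) with hdθ
  have c0 : HasFDerivAt (fun q : ℝ × ℝ => A q.1 * Real.cos (θ q))
      (A x • (-Real.sin (θ (x, y)) • dθ) + Real.cos (θ (x, y)) • ((W x / k) • π1)) (x, y) :=
    hAq.fun_mul hθq.cos
  have c1 : HasFDerivAt (fun q : ℝ × ℝ => A q.1 * Real.sin (θ q))
      (A x • (Real.cos (θ (x, y)) • dθ) + Real.sin (θ (x, y)) • ((W x / k) • π1)) (x, y) :=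
    hAq.fun_mul hθq.sin
  have hinner : ∀ a c : EuclideanSpace ℝ (Fin 3),
      inner ℝ a c = a 0 * c 0 + a 1 * c 1 + a 2 * c 2 := by
    intro a c
    rw [PiLp.inner_apply, Fin.sum_univ_three]
    simp only [RCLike.inner_apply, conj_trivial]
    ring
  rw [hinner]
  rw [fderiv_coord hdiff 0 c0 v, fderiv_coord hdiff 0 c0 w, fderiv_coord hdiff 1 c1 v,
    fderiv_coord hdiff 1 c1 w, fderiv_coord hdiff 2 hτq v, fderiv_coord hdiff 2 hτq w]
  simp only [add_apply, smul_apply, smul_eq_mul, hdθ,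
    hπ1, hπ2, ContinuousLinearMap.coe_fst', ContinuousLinearMap.coe_snd']
  set Cθ := Real.cos (θ (x, y))
  set Sθ := Real.sin (θ (x, y))
  have h1 : Sθ ^ 2 + Cθ ^ 2 = 1 := Real.sin_sq_add_cos_sq _
  have hAk : A x * k = r x := by
    simp only [hA]
    field_simp
  have hAk2 : (A x) ^ 2 * k ^ 2 = G x := by
    rw [← mul_pow, hAk, hrsq]
  have hs2 : s x ^ 2 = E x - H x ^ 2 / G x - W x ^ 2 / k ^ 2 := hssq x hxI
  have hG0 := hGne x
  have hGb : G x * b' x = H x := by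
    simp only [hb]
    field_simp
  have hGb2 : G x * b' x ^ 2 = H x ^ 2 / G x := by
    simp only [hb]
    field_simp
  have key : (A x * (-Sθ * (k * v.2 + k * (b' x * v.1))) + Cθ * (W x / k * v.1)) *
        (A x * (-Sθ * (k * w.2 + k * (b' x * w.1))) + Cθ * (W x / k * w.1)) +
      (A x * (Cθ * (k * v.2 + k * (b' x * v.1))) + Sθ * (W x / k * v.1)) *
        (A x * (Cθ * (k * w.2 + k * (b' x * w.1))) + Sθ * (W x / k * w.1)) +
      (s x * v.1) * (s x * w.1)
      = ((A x) ^ 2 * k ^ 2 * ((v.2 + b' x * v.1) * (w.2 + b' x * w.1))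
          + (W x / k) ^ 2 * (v.1 * w.1)) * (Sθ ^ 2 + Cθ ^ 2)
        + s x ^ 2 * (v.1 * w.1) := by
    ring
  rw [key, h1, hAk2, hs2]
  have h3 : G x * ((v.2 + b' x * v.1) * (w.2 + b' x * w.1))
      = G x * v.2 * w.2 + (G x * b' x) * (v.1 * w.2 + v.2 * w.1)
        + (G x * b' x ^ 2) * (v.1 * w.1) := by ring
  rw [h3, hGb, hGb2, div_pow]
  ring

end Vale.Agent.P229
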